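import Vale.Agent.P022D.CA.Dep

namespace Vale.Agent.P022E.CA
export Vale.Agent.P022D.CA (
  le_of_ass nzd_of_dim dimGE_mono depth_exists exists_ass depth_congr dimGE_ofList
  dim_le_of_not ass_dim dimGE_succ dimGE_prime depth_mono smulRegular_iff depth_step
  nat_le_of_dim depth_ofList dimGE_sup exists_nzd quotEquiv)
end Vale.Agent.P022E.CA
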