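import Vale.Agent.P022D.CA.Jac

namespace Vale.Agent.P022E.Jac
export Vale.Agent.P022D.Jac (
  prime_of_indep jac jac_ps dim_add_height)
end Vale.Agent.P022E.Jac
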