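import Vale.Agent.P022D.CA.Pdeg
import Vale.Agent.P022E.CA.Jac

namespace Vale.Agent.P022E.Pdeg
export Vale.Agent.P022D.Pdeg (
  Tan finrank_block_jac exists_derivation finrank_block_le derivation_closure gen gen_ker
  dichotomy finrank_le_sum gen_frac dv_apply dv dv_one pdeg dv_X dv_zero dim_le_finrank
  dv_C dim_le_card_of_derivation mem_Tan dv_add dv_mul jac_pt)
end Vale.Agent.P022E.Pdeg
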