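import Vale.Agent.P022D.CA.Pow
import Vale.Agent.P022E.CA.Dom

namespace Vale.Agent.P022E.CA
export Vale.Agent.P022D.CA (
  comapEquiv depth_unstep depth_ringEquiv depth_comap_iff mem_max_power map_surj
  mem_max_iff dom_power ofList_ofFn depth_power sop_regular depth_bot_iff dom_power_lift
  ker_map dom_lift depth_self)
end Vale.Agent.P022E.CA
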