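import Vale.Agent.P022D.CA.Blocks
import Vale.Agent.P022E.CA.Pow
import Vale.Agent.P022E.CA.Pdeg
import Vale.Agent.P022E.CA.BlkDefs

namespace Vale.Agent.P022E.CA
export Vale.Agent.P022D.CA (
  blk_at range_eqs blocks_hyp dom_blocks isPrecomplete_power gn dom_blocks_lift gn_frac
  gn_ker)
end Vale.Agent.P022E.CA
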