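import Vale.Agent.P022D.CA.Cpl

namespace Vale.Agent.P022E.CA.Cpl
export Vale.Agent.P022D.CA.Cpl (
  C_mem_pow residue_surj finite_residue exists_decompV mem_JI JI mem_max_iff JI_mul
  pow_le_JI isAdicCompleteV max_le_JI JI_le_pow)
end Vale.Agent.P022E.CA.Cpl
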