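import Vale.Agent.P022D.CA.Blk2
import Vale.Agent.P022E.CA.BlkDefs
import Vale.Agent.P022E.CA.Cpl
import Vale.Agent.P022E.L2.Pt
import Vale.Agent.P022E.L2.Ev

namespace Vale.Agent.P022E.CA
export Vale.Agent.P022D.CA (
  eq2 const_eq2 map_mat2 eq2_vanish T2 map_eq2 const_Z ev_uni mat2 IsZ blk2 blk2_lift
  der_sq exists_isZ)
end Vale.Agent.P022E.CA

namespace Vale.Agent.P022E.CA.IsZ
export Vale.Agent.P022D.CA.IsZ (
  map)
end Vale.Agent.P022E.CA.IsZ
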